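import Mathlib

/-!
P075, key lemma: dyadic levels, truncated matrices and their bounds in eigen-coordinates.
-/

noncomputable section

open Matrix Finset

namespace Vale.Agent.P075.Key

variable {ι κ μ : Type*} [Fintype ι] [Fintype κ] [Fintype μ]

/-- The dyadic level of a nonnegative number. -/
def lev (y : ℝ) : ℤ := Int.log 2 y

lemma zpow_lev_le {y : ℝ} (hy : 0 < y) : (2 : ℝ) ^ lev y ≤ y := by
  simpa [lev] using Int.zpow_log_le_self (R := ℝ) (b := 2) (by norm_num) hy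

lemma lt_zpow_lev {y : ℝ} : y < (2 : ℝ) ^ (lev y + 1) := by
  simpa [lev] using Int.lt_zpow_succ_log_self (R := ℝ) (b := 2) (by norm_num) y

lemma lt_of_lev_le {y : ℝ} {k : ℤ} (h : lev y ≤ k) : y < (2 : ℝ) ^ (k + 1) :=
  lt_zpow_lev.trans_le (zpow_le_zpow_right₀ (by norm_num) (by omega))

lemma le_of_lt_lev {y : ℝ} (hy : 0 < y) {k : ℤ} (h : k ≤ lev y) : (2 : ℝ) ^ k ≤ y :=
  (zpow_le_zpow_right₀ (by norm_num) h).trans (zpow_lev_le hy)

lemma sum_zpow_le (T : Finset ℤ) (e : ℤ) :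
    ∑ m ∈ T.filter (· ≤ e), (2 : ℝ) ^ m ≤ 2 * (2 : ℝ) ^ e := by
  classical
  set S := T.filter (· ≤ e) with hS
  set J := S.image fun m => (e - m).toNat with hJ
  have hinj : Set.InjOn (fun m => (e - m).toNat) S := fun a ha b hb hab => by
    simp only [hS, coe_filter, Set.mem_ofPred_eq] at ha hb
    simp only at hab
    omega
  have h1 : ∑ m ∈ S, (2 : ℝ) ^ m = (2 : ℝ) ^ e * ∑ j ∈ J, ((1 : ℝ) / 2) ^ j := by
    rw [hJ, sum_image hinj, mul_sum]
    refine sum_congr rfl fun m hm => ?_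
    simp only [hS, mem_filter] at hm
    rw [one_div, inv_pow, ← zpow_natCast, Int.toNat_of_nonneg (by omega), ← div_eq_mul_inv,
      ← zpow_sub₀ (by norm_num)]
    congr 1
    omega
  rw [h1, mul_comm (2 : ℝ)]
  refine mul_le_mul_of_nonneg_left ?_ (by positivity)
  calc ∑ j ∈ J, ((1 : ℝ) / 2) ^ j ≤ ∑ j ∈ range (J.sup id + 1), ((1 : ℝ) / 2) ^ j :=
        sum_le_sum_of_subset_of_nonneg (fun j hj => mem_range.2 (Nat.lt_succ_iff.2
          (le_sup (f := id) hj))) fun j _ _ => by positivity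
    _ ≤ 2 := sum_geometric_two_le _

/-- The kernel of the energy. -/
def kern (y u : ℝ) : ℝ := y ^ 2 * u ^ 2 / (y + u)

lemma mul_min_sq_le {y u : ℝ} (hy : 0 ≤ y) (hu : 0 < u) : u * min y u ^ 2 ≤ 2 * kern y u := by
  rw [kern, mul_div_assoc', le_div_iff₀ (by linarith)]
  rcases le_total y u with h | h
  · rw [min_eq_left h]
    nlinarith [mul_nonneg (mul_nonneg (sq_nonneg y) hu.le) (sub_nonneg.2 h)]
  · rw [min_eq_right h]
    nlinarith [mul_nonneg (mul_nonneg (sq_nonneg u) hy) (sub_nonneg.2 h),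
      mul_nonneg (mul_nonneg (sq_nonneg u) hu.le) (sub_nonneg.2 h)]

lemma dyadic_kernel_sum (T : Finset ℤ) {y u : ℝ} (hy : 0 ≤ y) (hu : 0 < u) :
    ∑ m ∈ T.filter (· ≤ lev u), (2 : ℝ) ^ m * min y (2 * 2 ^ m) ^ 2 ≤ 16 * kern y u := by
  have hpt : ∀ m ∈ T.filter (· ≤ lev u),
      (2 : ℝ) ^ m * min y (2 * 2 ^ m) ^ 2 ≤ (2 : ℝ) ^ m * (4 * min y u ^ 2) := by
    intro m hm
    simp only [mem_filter] at hm
    have hmu : (2 : ℝ) ^ m ≤ u := le_of_lt_lev hu hm.2
    refine mul_le_mul_of_nonneg_left ?_ (by positivity)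
    have h : min y (2 * (2 : ℝ) ^ m) ≤ 2 * min y u := by
      rw [mul_min_of_nonneg _ _ (by norm_num : (0 : ℝ) ≤ 2)]
      exact min_le_min (by linarith) (by linarith)
    calc min y (2 * (2 : ℝ) ^ m) ^ 2 ≤ (2 * min y u) ^ 2 :=
          pow_le_pow_left₀ (le_min hy (by positivity)) h 2
      _ = _ := by ring
  calc ∑ m ∈ T.filter (· ≤ lev u), (2 : ℝ) ^ m * min y (2 * 2 ^ m) ^ 2
      ≤ ∑ m ∈ T.filter (· ≤ lev u), (2 : ℝ) ^ m * (4 * min y u ^ 2) := sum_le_sum hpt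
    _ = (∑ m ∈ T.filter (· ≤ lev u), (2 : ℝ) ^ m) * (4 * min y u ^ 2) := by rw [sum_mul]
    _ ≤ (2 * u) * (4 * min y u ^ 2) := mul_le_mul_of_nonneg_right
        ((sum_zpow_le T _).trans (by linarith [zpow_lev_le hu])) (by positivity)
    _ ≤ _ := by linarith [mul_min_sq_le hy hu]

/-- A family of vectors is bounded by a diagonal. -/
def ColBound (A : Matrix ι κ ℝ) (y : κ → ℝ) : Prop :=
  ∀ v : κ → ℝ, ∑ i, (A *ᵥ v) i ^ 2 ≤ ∑ j, y j ^ 2 * v j ^ 2

lemma transpose_pair {A : Matrix ι κ ℝ} (u : ι → ℝ) (v : κ → ℝ) :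
    ∑ i, u i * (A *ᵥ v) i = ∑ j, (Aᵀ *ᵥ u) j * v j := by
  simp only [Matrix.mulVec, dotProduct, Matrix.transpose_apply, mul_sum, sum_mul]
  rw [sum_comm]
  exact sum_congr rfl fun j _ => sum_congr rfl fun i _ => by ring

lemma low_rows {A : Matrix ι κ ℝ} {y' : ι → ℝ} (hA' : ColBound Aᵀ y') (hy' : ∀ i, 0 ≤ y' i)
    {S : Finset ι} {L : ℝ} (hL : 0 < L) (hS : ∀ i ∈ S, y' i ≤ L) (w : κ → ℝ) :
    ∑ i ∈ S, (A *ᵥ w) i ^ 2 ≤ L ^ 2 * ∑ j, w j ^ 2 := by
  classical
  set u : ι → ℝ := fun i => if i ∈ S then (A *ᵥ w) i else 0 with hu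
  have h1 : ∑ i, u i * (A *ᵥ w) i = ∑ i ∈ S, (A *ᵥ w) i ^ 2 := by
    simp [hu, ite_mul, sum_ite_mem, sq]
  rw [transpose_pair] at h1
  have h2 : ∑ j, (Aᵀ *ᵥ u) j ^ 2 ≤ L ^ 2 * ∑ i ∈ S, (A *ᵥ w) i ^ 2 := by
    refine (hA' u).trans ?_
    rw [mul_sum]
    calc ∑ i, y' i ^ 2 * u i ^ 2 = ∑ i ∈ S, y' i ^ 2 * (A *ᵥ w) i ^ 2 := by
          simp [hu, ite_pow, mul_ite, sum_ite_mem]
      _ ≤ _ := sum_le_sum fun i hi => by gcongr; exacts [hy' i, hS i hi]
  have h3 : ∑ j, 2 * ((Aᵀ *ᵥ u) j * w j) ≤ ∑ j, ((Aᵀ *ᵥ u) j ^ 2 / L ^ 2 + L ^ 2 * w j ^ 2) := by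
    refine sum_le_sum fun j _ => ?_
    have : 0 ≤ ((Aᵀ *ᵥ u) j / L - L * w j) ^ 2 := sq_nonneg _
    rw [sub_sq, div_pow, mul_pow] at this
    field_simp at this ⊢
    linarith
  rw [← mul_sum, h1, sum_add_distrib, ← sum_div, ← mul_sum] at h3
  have h4 := (div_le_iff₀' (pow_pos hL 2)).2 h2
  linarith

/-- The entries of smallest level at most `k`. -/
def low (A : Matrix ι κ ℝ) (y' : ι → ℝ) (y : κ → ℝ) (k : ℤ) : Matrix ι κ ℝ :=
  Matrix.of fun i j => if min (lev (y' i)) (lev (y j)) ≤ k then A i j else 0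

/-- The entries of smallest level exactly `m`. -/
def slab (A : Matrix ι κ ℝ) (y' : ι → ℝ) (y : κ → ℝ) (m : ℤ) : Matrix ι κ ℝ :=
  Matrix.of fun i j => if min (lev (y' i)) (lev (y j)) = m then A i j else 0

lemma low_bound {A : Matrix ι κ ℝ} {y' : ι → ℝ} {y : κ → ℝ} (hA : ColBound A y)
    (hA' : ColBound Aᵀ y') (hy' : ∀ i, 0 ≤ y' i) (hy : ∀ j, 0 < y j) {k m : ℤ} (hk : k ≤ m)
    (v : κ → ℝ) :
    ∑ i, (low A y' y k *ᵥ v) i ^ 2 ≤ 3 * ∑ j, min (y j) (2 * 2 ^ m) ^ 2 * v j ^ 2 := by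
  classical
  set L : ℝ := 2 ^ (k + 1) with hLdef
  have hLm : L ≤ 2 * 2 ^ m := by
    rw [hLdef, ← zpow_one_add₀ (by norm_num : (2 : ℝ) ≠ 0)]
    exact zpow_le_zpow_right₀ (by norm_num) (by omega)
  set S := (univ : Finset ι).filter fun i => lev (y' i) ≤ k with hS
  set v₀ : κ → ℝ := fun j => if lev (y j) ≤ k then v j else 0 with hv₀
  set v₁ : κ → ℝ := fun j => if lev (y j) ≤ k then 0 else v j with hv₁
  have hv : v = v₀ + v₁ := by
    funext j; simp only [hv₀, hv₁, Pi.add_apply]; split <;> simp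
  have e : ∀ i, (low A y' y k *ᵥ v) i = if i ∈ S then (A *ᵥ v) i else (A *ᵥ v₀) i := by
    intro i
    simp only [hS, mem_filter, mem_univ, true_and, low, hv₀, Matrix.mulVec, dotProduct,
      Matrix.of_apply, min_le_iff]
    split
    · next h => exact sum_congr rfl fun j _ => by simp [h]
    · next h =>
      refine sum_congr rfl fun j _ => ?_
      by_cases hj : lev (y j) ≤ k <;> simp [h, hj]
  have hb : ∀ i, (low A y' y k *ᵥ v) i ^ 2
      ≤ 3 * (A *ᵥ v₀) i ^ 2 + if i ∈ S then 2 * (A *ᵥ v₁) i ^ 2 else 0 := by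
    intro i
    rw [e]
    by_cases h : i ∈ S
    · rw [if_pos h, if_pos h, hv, Matrix.mulVec_add, Pi.add_apply]
      nlinarith [sq_nonneg ((A *ᵥ v₀) i - (A *ᵥ v₁) i), sq_nonneg ((A *ᵥ v₀) i)]
    · rw [if_neg h, if_neg h]
      nlinarith [sq_nonneg ((A *ᵥ v₀) i)]
  refine (sum_le_sum fun i _ => hb i).trans ?_
  rw [sum_add_distrib, ← mul_sum, sum_ite_mem, univ_inter, ← mul_sum]
  have h0 := hA v₀
  have h1 := low_rows hA' hy' (S := S) (L := L) (by positivity) (fun i hi => by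
    simp only [hS, mem_filter] at hi
    exact (lt_of_lev_le hi.2).le) v₁
  refine (add_le_add (mul_le_mul_of_nonneg_left h0 (by norm_num))
    (mul_le_mul_of_nonneg_left h1 (by norm_num))).trans ?_
  rw [mul_sum, mul_sum, mul_sum, mul_sum, ← sum_add_distrib]
  refine sum_le_sum fun j _ => ?_
  simp only [hv₀, hv₁]
  by_cases hj : lev (y j) ≤ k
  · rw [if_pos hj, if_pos hj, min_eq_left ((lt_of_lev_le hj).le.trans hLm)]
    simp
  · rw [if_neg hj, if_neg hj]
    have hyL : L ≤ min (y j) (2 * 2 ^ m) := by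
      refine le_min ?_ hLm
      exact le_of_lt_lev (hy j) (by omega)
    have : L ^ 2 ≤ min (y j) (2 * 2 ^ m) ^ 2 := pow_le_pow_left₀ (by positivity) hyL 2
    nlinarith [sq_nonneg (v j)]

/-- A slab only sees indices of level at least `m` and is bounded by three times `2 ^ m`. -/
lemma slab_bound {A : Matrix ι κ ℝ} {y' : ι → ℝ} {y : κ → ℝ} (hA : ColBound A y)
    (hA' : ColBound Aᵀ y') (hy' : ∀ i, 0 ≤ y' i) (hy : ∀ j, 0 ≤ y j) (m : ℤ) (w : κ → ℝ) :
    ∑ i, (slab A y' y m *ᵥ w) i ^ 2 ≤ (3 * 2 ^ m) ^ 2 * ∑ j, w j ^ 2 := by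
  classical
  set L : ℝ := 2 ^ (m + 1) with hLdef
  set w₁ : κ → ℝ := fun j => if m ≤ lev (y j) then w j else 0 with hw₁
  set w₂ : κ → ℝ := fun j => if lev (y j) = m then w j else 0 with hw₂
  set S := (univ : Finset ι).filter fun i => lev (y' i) = m with hS
  have hb : ∀ i, (slab A y' y m *ᵥ w) i ^ 2
      ≤ (A *ᵥ w₂) i ^ 2 + if i ∈ S then (A *ᵥ w₁) i ^ 2 else 0 := by
    intro i
    simp only [hS, mem_filter, mem_univ, true_and]
    rcases lt_trichotomy (lev (y' i)) m with h | h | h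
    · have e : (slab A y' y m *ᵥ w) i = 0 := by
        simp only [slab, Matrix.mulVec, dotProduct, Matrix.of_apply]
        refine sum_eq_zero fun j _ => ?_
        rw [if_neg (by omega), zero_mul]
      rw [e, if_neg h.ne]
      nlinarith [sq_nonneg ((A *ᵥ w₂) i)]
    · have e : (slab A y' y m *ᵥ w) i = (A *ᵥ w₁) i := by
        simp only [slab, hw₁, Matrix.mulVec, dotProduct, Matrix.of_apply]
        refine sum_congr rfl fun j _ => ?_
        by_cases hj : m ≤ lev (y j)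
        · rw [if_pos (by omega), if_pos hj]
        · rw [if_neg (by omega), if_neg hj, zero_mul, mul_zero]
      rw [e, if_pos h]
      nlinarith [sq_nonneg ((A *ᵥ w₂) i)]
    · have e : (slab A y' y m *ᵥ w) i = (A *ᵥ w₂) i := by
        simp only [slab, hw₂, Matrix.mulVec, dotProduct, Matrix.of_apply]
        refine sum_congr rfl fun j _ => ?_
        by_cases hj : lev (y j) = m
        · rw [if_pos (by omega), if_pos hj]
        · rw [if_neg (by omega), if_neg hj, zero_mul, mul_zero]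
      rw [e, if_neg h.ne']
      simp
  refine (sum_le_sum fun i _ => hb i).trans ?_
  rw [sum_add_distrib, sum_ite_mem, univ_inter]
  refine (add_le_add (hA w₂) (low_rows hA' hy' (S := S) (L := L) (by positivity) (fun i hi => by
    simp only [hS, mem_filter] at hi
    exact (lt_of_lev_le hi.2.le).le) w₁)).trans ?_
  rw [mul_sum, mul_sum, ← sum_add_distrib]
  refine sum_le_sum fun j _ => ?_
  have hL : L = 2 * 2 ^ m := by rw [hLdef, zpow_add_one₀ (by norm_num)]; ring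
  have h2 : y j ^ 2 * w₂ j ^ 2 ≤ L ^ 2 * w j ^ 2 := by
    simp only [hw₂]
    by_cases hj : lev (y j) = m
    · rw [if_pos hj]
      exact mul_le_mul_of_nonneg_right
        (pow_le_pow_left₀ (hy j) (lt_of_lev_le hj.le).le 2) (sq_nonneg _)
    · rw [if_neg hj, zero_pow two_ne_zero, mul_zero]
      positivity
  have h1 : L ^ 2 * w₁ j ^ 2 ≤ L ^ 2 * w j ^ 2 := by
    simp only [hw₁]
    split
    · exact le_rfl
    · rw [zero_pow two_ne_zero, mul_zero]; positivity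
  rw [hL] at h1 h2 ⊢
  nlinarith [mul_nonneg (sq_nonneg ((2 : ℝ) ^ m)) (sq_nonneg (w j))]

/-- A contraction of a Euclidean space. -/
def Contr (W : Matrix ι ι ℝ) : Prop := ∀ v : ι → ℝ, ∑ i, (W *ᵥ v) i ^ 2 ≤ ∑ i, v i ^ 2

/-- The weighted energy of a change of frame. -/
def energy (W : Matrix κ κ ℝ) (y : κ → ℝ) : ℝ := ∑ p, ∑ q, W p q ^ 2 * kern (y p) (y q)

/-- The part of the energy seen at one scale. -/
def scale (W : Matrix κ κ ℝ) (y : κ → ℝ) (m : ℤ) : ℝ :=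
  ∑ p with m ≤ lev (y p), ∑ j, min (y j) (2 * 2 ^ m) ^ 2 * W j p ^ 2

lemma sum_scale_le {W : Matrix κ κ ℝ} (y : κ → ℝ) (hy : ∀ j, 0 < y j) (T : Finset ℤ) :
    ∑ m ∈ T, 2 ^ m * scale W y m ≤ 16 * energy W y := by
  classical
  calc ∑ m ∈ T, 2 ^ m * scale W y m
      = ∑ p, ∑ j, W j p ^ 2
          * ∑ m ∈ T.filter (· ≤ lev (y p)), 2 ^ m * min (y j) (2 * 2 ^ m) ^ 2 := by
        simp only [scale, mul_sum, sum_filter]
        rw [sum_comm]
        refine sum_congr rfl fun p _ => ?_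
        rw [sum_comm (t := T)]
        refine sum_congr rfl fun m _ => ?_
        by_cases h : m ≤ lev (y p)
        · rw [if_pos h, mul_sum]
          exact sum_congr rfl fun j _ => by rw [if_pos h]; ring
        · rw [if_neg h, mul_zero]
          exact (sum_eq_zero fun j _ => by rw [if_neg h, mul_zero]).symm
    _ ≤ ∑ p, ∑ j, W j p ^ 2 * (16 * kern (y j) (y p)) := sum_le_sum fun p _ => sum_le_sum fun j _ =>
        mul_le_mul_of_nonneg_left (dyadic_kernel_sum T (hy j).le (hy p)) (sq_nonneg _)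
    _ = _ := by
        rw [energy, sum_comm, mul_sum]
        refine sum_congr rfl fun j _ => ?_
        rw [mul_sum]
        exact sum_congr rfl fun p _ => by ring

lemma abs_trace_le {E : Matrix ι κ ℝ} {M : Matrix κ ι ℝ} {a : ℝ} (ha : 0 < a) :
    |(E * M).trace| ≤ (a * (∑ i, ∑ j, E i j ^ 2) + (∑ i, ∑ j, M j i ^ 2) / a) / 2 := by
  rw [Matrix.trace]
  simp only [Matrix.diag, Matrix.mul_apply]
  refine (abs_sum_le_sum_abs _ _).trans ?_
  rw [mul_sum, sum_div, ← sum_add_distrib, sum_div]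
  refine sum_le_sum fun i _ => (abs_sum_le_sum_abs _ _).trans ?_
  rw [mul_sum, sum_div, ← sum_add_distrib, sum_div]
  refine sum_le_sum fun j _ => ?_
  rw [abs_mul, le_div_iff₀ (by norm_num : (0 : ℝ) < 2)]
  have h : 0 ≤ (a * |E i j| - |M j i|) ^ 2 / a := by positivity
  rw [sub_sq, mul_pow, sq_abs, sq_abs, sub_add_eq_add_sub, sub_div, add_div] at h
  field_simp at h ⊢
  linarith

/-- The middle slab dominates: one scale of the trilinear form. -/
theorem scale_bound {A : Matrix ι κ ℝ} {B : Matrix κ μ ℝ} {C : Matrix μ ι ℝ}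
    {ya : ι → ℝ} {yb : κ → ℝ} {yc : μ → ℝ} (hya : ∀ i, 0 < ya i) (hyb : ∀ i, 0 < yb i)
    (hyc : ∀ i, 0 < yc i) (hA : ColBound A yb) (hA' : ColBound Aᵀ ya) (hB : ColBound B yc)
    (hB' : ColBound Bᵀ yb) (hC : ColBound C ya) (hC' : ColBound Cᵀ yc) {Wa : Matrix ι ι ℝ}
    {Wb : Matrix κ κ ℝ} {Wc : Matrix μ μ ℝ} (hWa : Contr Waᵀ) (hWc : Wcᵀ = Wc)
    {k k' m : ℤ} (hk : k ≤ m) (hk' : k' ≤ m) :
    |(low A ya yb k * Wb * slab B yb yc m * Wc * low C yc ya k' * Wa).trace|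
      ≤ 5 * 2 ^ m * (scale Wb yb m + scale Wc yc m) := by
  classical
  set X := low A ya yb k
  set D := slab B yb yc m with hD
  set Y := low C yc ya k'
  set E : Matrix ι κ ℝ := Matrix.of fun i p => if m ≤ lev (yb p) then (X * Wb) i p else 0 with hE
  set F : Matrix μ ι ℝ := Matrix.of fun r i => if m ≤ lev (yc r) then (Wc * Y) r i else 0 with hF
  have e1 : X * Wb * D * Wc * Y = E * (D * F) := by
    rw [Matrix.mul_assoc _ Wc Y, ← Matrix.mul_assoc E]
    ext i i'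
    simp only [Matrix.mul_apply, sum_mul]
    refine sum_congr rfl fun r _ => sum_congr rfl fun p _ => ?_
    by_cases hD0 : D p r = 0
    · simp [hD0]
    have h : m ≤ lev (yb p) ∧ m ≤ lev (yc r) := by
      simp only [hD, slab, Matrix.of_apply, ite_eq_right_iff, Classical.not_imp] at hD0
      omega
    simp [hE, hF, h.1, h.2, Matrix.mul_apply, sum_mul]
  have hEb : ∑ i, ∑ p, E i p ^ 2 ≤ 3 * scale Wb yb m := by
    rw [sum_comm, scale, mul_sum, sum_filter]
    refine sum_le_sum fun p _ => ?_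
    by_cases h : m ≤ lev (yb p)
    · rw [if_pos h]
      simp only [hE, Matrix.of_apply, if_pos h, Matrix.mul_apply]
      simpa [X, Matrix.mulVec, dotProduct] using
        low_bound hA hA' (fun i => (hya i).le) hyb hk (fun j => Wb j p)
    · rw [if_neg h]
      simp [hE, h]
  have hFb : ∑ r, ∑ i, F r i ^ 2 ≤ 3 * scale Wc yc m := by
    rw [scale, mul_sum, sum_filter]
    refine sum_le_sum fun r _ => ?_
    by_cases h : m ≤ lev (yc r)
    · rw [if_pos h]
      simp only [hF, Matrix.of_apply, if_pos h, Matrix.mul_apply]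
      have e : Yᵀ = low Cᵀ ya yc k' := by
        ext i j
        simp [Y, low, or_comm]
      have h2 := low_bound hC' (by simpa using hC) (fun i => (hya i).le) hyc hk' (fun j => Wc r j)
      rw [← e] at h2
      simp only [Matrix.mulVec, dotProduct, Matrix.transpose_apply] at h2
      calc ∑ i, (∑ j, Wc r j * Y j i) ^ 2 = ∑ i, (∑ j, Y j i * Wc r j) ^ 2 :=
            sum_congr rfl fun i _ => by rw [sum_congr rfl fun j _ => mul_comm _ _]
        _ ≤ 3 * ∑ j, min (yc j) (2 * 2 ^ m) ^ 2 * Wc r j ^ 2 := h2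
        _ = _ := by
            congr 1
            refine sum_congr rfl fun j _ => ?_
            rw [show Wc j r = Wc r j by rw [← Matrix.transpose_apply Wc r j, hWc]]
    · rw [if_neg h]
      simp [hF, h]
  set M := D * (F * Wa) with hM
  have hMb : ∑ i, ∑ p, M p i ^ 2 ≤ (3 * 2 ^ m) ^ 2 * ∑ r, ∑ i, F r i ^ 2 := by
    have h1 : ∑ i, ∑ p, M p i ^ 2 ≤ (3 * 2 ^ m) ^ 2 * ∑ i, ∑ r, (F * Wa) r i ^ 2 := by
      rw [mul_sum]
      refine sum_le_sum fun i _ => ?_
      simpa [hM, hD, Matrix.mul_apply, Matrix.mulVec, dotProduct] using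
        slab_bound hB hB' (fun p => (hyb p).le) (fun r => (hyc r).le) m (fun r => (F * Wa) r i)
    refine h1.trans (mul_le_mul_of_nonneg_left ?_ (sq_nonneg _))
    rw [sum_comm]
    refine sum_le_sum fun r _ => ?_
    simpa [Matrix.mul_apply, Matrix.mulVec, dotProduct, Matrix.transpose_apply, mul_comm] using
      hWa (fun i => F r i)
  rw [e1, Matrix.mul_assoc, Matrix.mul_assoc D, ← hM]
  have ha : (0 : ℝ) < 3 * 2 ^ m := by positivity
  refine (abs_trace_le ha).trans ?_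
  have h3 : (∑ i, ∑ p, M p i ^ 2) / (3 * 2 ^ m) ≤ 3 * 2 ^ m * (3 * scale Wc yc m) := by
    rw [div_le_iff₀ ha]
    calc ∑ i, ∑ p, M p i ^ 2 ≤ (3 * 2 ^ m) ^ 2 * (3 * scale Wc yc m) :=
          hMb.trans (mul_le_mul_of_nonneg_left hFb (sq_nonneg _))
      _ = _ := by ring
  have h4 := mul_le_mul_of_nonneg_left hEb ha.le
  have hnb : 0 ≤ scale Wb yb m := sum_nonneg fun p _ => sum_nonneg fun j _ => by positivity
  have hnc : 0 ≤ scale Wc yc m := sum_nonneg fun p _ => sum_nonneg fun j _ => by positivity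
  nlinarith [mul_nonneg ha.le hnb, mul_nonneg ha.le hnc]

end Vale.Agent.P075.Key
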